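import Vale.Agent.P284.GroupDefs

/-! Classes of groups used for the quotients of `π₁(X)`. -/

namespace Vale.Agent.P284.H593

open Function

universe u

/-- Every infinite finitely generated subgroup of `Q` has a finite-index subgroup which surjects
onto `ℤ` (for example `Q` elementary amenable, or locally indicable). -/
def LocVirtInd (Q : Type u) [Group Q] : Prop :=
  ∀ K : Subgroup Q, K.FG → Infinite K → VirtInd K

/-- `Q` has a finite-dimensional complex linear representation with locally virtually indicable
kernel. -/
def Tame (Q : Type u) [Group Q] : Prop :=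
  ∃ (d : ℕ) (ρ : Q →* Matrix.GeneralLinearGroup (Fin d) ℂ), LocVirtInd ρ.ker

/-- `Q` has a finite-index subgroup isomorphic to `ℤˢ` for some `s ≤ N`. -/
def VirtZLe (Q : Type u) [Group Q] (N : ℕ) : Prop :=
  ∃ A : Subgroup Q, A.FiniteIndex ∧ ∃ s ≤ N, Nonempty (A ≃* Multiplicative (Fin s → ℤ))

/-- Every finitely generated subgroup other than the trivial one surjects onto `ℤ`. -/
def LocInd (Q : Type u) [Group Q] : Prop :=
  ∀ K : Subgroup Q, K.FG → K ≠ ⊥ → ∃ f : K →* Multiplicative ℤ, Surjective f

end Vale.Agent.P284.H593
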