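import Vale.Agent.P284.H593.Main

open Function

namespace Vale.Agent.P284.H593

universe u v

theorem virtAb_of_finite_map {G : Type u} [Group G] (hG : Group.FG G) (H : Subgroup G)
    (hH : H.FiniteIndex) {Q : Type v} [Group Q] (f : G →* Q) (hf : Surjective f)
    (hM : Finite ((zKer H).map (f.comp H.subtype))) : VirtAb Q := by
  have hP : (H.map f).FiniteIndex := by
    constructor
    intro h0
    have h1 : (H.map f).index ∣ H.index := H.index_map_dvd hf
    rw [h0] at h1
    exact hH.index_ne_zero (Nat.eq_zero_of_zero_dvd h1)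
  have hHfg : Group.FG H := inferInstance
  have hPfg : Group.FG (H.map f) := Group.fg_of_surjective (f.subgroupMap_surjective H)
  apply VirtAb.of_finiteIndex (H.map f) hP
  have hsub : Subtype.val '' (commutatorSet (H.map f)) ⊆
      (((zKer H).map (f.comp H.subtype) : Subgroup Q) : Set Q) := by
    rintro _ ⟨_, ⟨⟨_, ⟨a, ha, rfl⟩⟩, ⟨_, ⟨b, hb, rfl⟩⟩, rfl⟩, rfl⟩
    refine ⟨(⟨a, ha⟩ : H) * ⟨b, hb⟩ * (⟨a, ha⟩ : H)⁻¹ * (⟨b, hb⟩ : H)⁻¹, ?_, ?_⟩
    · change _ ∈ zKer H
      rw [mem_zKer]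
      intro ψ
      simp only [map_mul, map_inv]
      rw [mul_comm (ψ ⟨a, ha⟩) (ψ ⟨b, hb⟩)]
      simp
    · simp [commutatorElement_def]
  have hfin : (commutatorSet (H.map f)).Finite :=
    Set.Finite.of_finite_image ((Set.toFinite _).subset hsub) Subtype.val_injective.injOn
  have hfin' : Finite (commutatorSet (H.map f)) := hfin.to_subtype
  exact ⟨Subgroup.center (H.map f), inferInstance,
    fun a ha b _ => ((Subgroup.mem_center_iff.mp ha) b).symm⟩

theorem virtAb_of_virtZLe {Q : Type u} [Group Q] {N : ℕ} (h : VirtZLe Q N) : VirtAb Q := by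
  obtain ⟨A, hA, s, -, ⟨e⟩⟩ := h
  refine ⟨A, hA, fun a ha b hb => ?_⟩
  have h1 : (⟨a, ha⟩ : A) * ⟨b, hb⟩ = ⟨b, hb⟩ * ⟨a, ha⟩ := by
    apply e.injective
    rw [map_mul, map_mul, mul_comm]
  exact congrArg Subtype.val h1

theorem group_main {G : Type u} [Group G] {N : ℕ} (h : Restricted G N) :
    (criteria G).TFAE ∧
    (∀ (Q : Type u) [Group Q] (f : G →* Q), Surjective f →
      ([Tame Q, LocVirtInd Q, VirtZLe Q N] ++ criteria Q).TFAE) ∧
    (∃ H : Subgroup G, H.FiniteIndex ∧ (zKer H).FG ∧ (VirtAb G ↔ Finite (zKer H)) ∧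
      ∀ (Q : Type u) [Group Q] (f : G →* Q), Tame Q →
        Finite ((zKer H).map (f.comp H.subtype))) ∧
    (∀ (Q : Type u) [Group Q], (ElemAmen Q ∨ LocInd Q ∨ LocVirtInd Q ∨
      ∃ (d : ℕ) (ρ : Q →* Matrix.GeneralLinearGroup (Fin d) ℂ), Injective ρ) → Tame Q) := by
  have hb : ∀ H : Subgroup G, H.FiniteIndex → ∀ (k : ℕ) (f : H →* Multiplicative (Fin k → ℤ)),
      Surjective f → k ≤ N := fun H hH k f hf =>
    (h.1 H hH).1 k (fun x => Multiplicative.toAdd (f x)) (fun x y i => by rw [map_mul]; rfl) hf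
  obtain ⟨hG, H, hH, hHfg, hmax, hmain⟩ := exists_max N hb (fun H hH => (h.1 H hH).2) h.2
  have hK : (zKer H).FG := (h.1 H hH).2
  have key : ∀ (Q : Type u) [Group Q] (f : G →* Q), Tame Q →
      Finite ((zKer H).map (f.comp H.subtype)) := fun Q _ f hQ =>
    finite_map_of_tame H hmax hG hK h.2 hmain f hQ
  refine ⟨tfae_restricted h, ?_, ⟨H, hH, hK, ⟨?_, ?_⟩, key⟩, ?_⟩
  · intro Q _ f hf
    have hQ : Restricted Q N := restricted_of_surjective f hf hG h
    have h0 := tfae_restricted hQ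
    unfold criteria at h0 ⊢
    simp only [List.cons_append, List.nil_append]
    tfae_have 4 ↔ 5 := h0.out 0 1
    tfae_have 4 ↔ 6 := h0.out 0 2
    tfae_have 4 ↔ 7 := h0.out 0 3
    tfae_have 4 ↔ 8 := h0.out 0 4
    tfae_have 5 → 2 := locVirtInd_of_elemAmen
    tfae_have 2 → 1 := tame_of_locVirtInd
    tfae_have 1 → 4 := fun ht => virtAb_of_finite_map hG H hH f hf (key Q f ht)
    tfae_have 4 → 3 := fun hv => virtZ_of_virtAb hG (fun H hH => (h.1 H hH).1) f hf hv
    tfae_have 3 → 4 := virtAb_of_virtZLe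
    tfae_finish
  · intro hv
    have h1 := finite_map_of_virtAb H hmax hG (MonoidHom.id G) surjective_id hv
    have h2 : Injective ((MonoidHom.id G).comp H.subtype) := H.subtype_injective
    exact Finite.of_injective _
      ((zKer H).equivMapOfInjective ((MonoidHom.id G).comp H.subtype) h2).injective
  · intro hfin
    exact VirtAb.of_finiteIndex H hH (virtAb_of_finite_zKer hHfg hfin)
  · rintro Q _ (hQ | hQ | hQ | ⟨d, ρ, hρ⟩)
    · exact tame_of_locVirtInd (locVirtInd_of_elemAmen hQ)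
    · exact tame_of_locVirtInd (locVirtInd_of_locInd hQ)
    · exact tame_of_locVirtInd hQ
    · exact tame_of_linear ρ hρ

end Vale.Agent.P284.H593
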