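import Vale.Agent.P284.Bdl.B1
import Vale.Agent.P284.H593.Defs

open Function

namespace Vale.Agent.P284.H593

universe u v w

/-- the maximal cover, with its properties -/
theorem exists_max {G : Type u} [Group G] (n : ℕ)
    (hb : ∀ H : Subgroup G, H.FiniteIndex → ∀ (k : ℕ) (f : H →* Multiplicative (Fin k → ℤ)),
      Surjective f → k ≤ n)
    (hfg : ∀ H : Subgroup G, H.FiniteIndex → (zKer H).FG)
    (hlin : LinVirtAb G) :
    Group.FG G ∧ ∃ H : Subgroup G, H.FiniteIndex ∧ Group.FG H ∧
      (∀ Q₁ : Subgroup H, Q₁.FiniteIndex → ∀ ψ : Q₁ →* Multiplicative ℤ, ∀ k : Q₁,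
        (k : H) ∈ zKer H → ψ k = 1) ∧
      ((Infinite (zKer H) → VirtInd (zKer H)) → Finite (zKer H)) := by
  classical
  let p : ℕ → Prop := fun k => ∃ H : Subgroup G, H.FiniteIndex ∧
    ∃ f : H →* Multiplicative (Fin k → ℤ), Surjective f
  have hp0 : p 0 := by
    refine ⟨⊤, inferInstance, 1, ?_⟩
    intro y
    refine ⟨1, ?_⟩
    apply Multiplicative.toAdd.injective
    exact Subsingleton.elim _ _
  have hpb : ∀ k, p k → k ≤ n := by
    rintro k ⟨H, hH, f, hf⟩
    exact hb H hH k f hf
  obtain ⟨r, hr, hrmax⟩ : ∃ r, p r ∧ ∀ k, p k → k ≤ r := by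
    refine ⟨Nat.findGreatest p n, Nat.findGreatest_spec (Nat.zero_le n) hp0, fun k hk => ?_⟩
    exact Nat.le_findGreatest (hpb k hk) hk
  obtain ⟨H, hH, f, hf⟩ := hr
  have hmax : ∀ Q₁ : Subgroup H, Q₁.FiniteIndex → ∀ ψ : Q₁ →* Multiplicative ℤ, ∀ k : Q₁,
      (k : H) ∈ f.ker → ψ k = 1 := by
    intro Q₁ hQ₁ ψ k hk
    by_contra hψ
    obtain ⟨F, hF⟩ := exists_surj_succ f hf Q₁.subtype (by rw [Subgroup.range_subtype]; exact hQ₁)
      ψ k hk hψ
    let e : Q₁ ≃* Q₁.map H.subtype :=
      Subgroup.equivMapOfInjective Q₁ H.subtype H.subtype_injective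
    have : p (r + 1) := ⟨Q₁.map H.subtype, finiteIndex_map_subtype H hH Q₁ hQ₁,
      F.comp e.symm.toMonoidHom, hF.comp e.symm.surjective⟩
    have := hrmax _ this
    omega
  have hker : f.ker = zKer H := by
    apply le_antisymm
    · intro x hx
      rw [mem_zKer]
      intro ψ
      have h1 := hmax ⊤ inferInstance (ψ.comp (Subgroup.topEquiv (G := H)).toMonoidHom)
        ⟨x, trivial⟩ hx
      exact h1
    · intro x hx
      rw [mem_zKer] at hx
      rw [MonoidHom.mem_ker]
      apply Multiplicative.toAdd.injective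
      funext j
      let c : Multiplicative (Fin r → ℤ) →* Multiplicative ℤ :=
        AddMonoidHom.toMultiplicative (Pi.evalAddMonoidHom (fun _ : Fin r => ℤ) j)
      exact hx (c.comp f)
  have hKfg : f.ker.FG := by
    rw [hker]
    exact hfg H hH
  have hHfg : Group.FG H := fg_of_ker_fg inferInstance f hf hKfg
  refine ⟨fg_of_finiteIndex H hH hHfg, H, hH, hHfg, ?_, ?_⟩
  · rw [← hker]
    exact hmax
  · intro hVI
    rw [← hker] at hVI ⊢
    exact ker_finite f hf hKfg (hlin.subgroup H hH) hmax hVI

theorem subgroup_fg_of_comm {B : Type u} [CommGroup B] [hB : Group.FG B] (C : Subgroup B) :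
    C.FG := by
  have hfin : Module.Finite ℤ (Additive B) := Module.Finite.iff_addGroup_fg.mpr inferInstance
  have hN : IsNoetherian ℤ (Additive B) := isNoetherian_of_isNoetherianRing_of_finite ℤ _
  have h1 := hN.noetherian (AddSubgroup.toIntSubmodule (Subgroup.toAddSubgroup C))
  rw [Submodule.fg_iff_addSubgroup_fg, AddSubgroup.toIntSubmodule_toAddSubgroup] at h1
  exact (Subgroup.fg_iff_add_fg C).mpr h1

theorem finite_zKer_comm {B : Type u} [CommGroup B] [hB : Group.FG B] : Finite (zKer B) := by
  have hfg : Group.FG (zKer B) := (Group.fg_iff_subgroup_fg _).mpr (subgroup_fg_of_comm _)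
  have htor : IsMulTorsion (zKer B) := by
    intro s
    by_contra hs
    have h1 : ∀ j : ℕ, (s : B) ^ j = 1 → j = 0 := by
      intro j hj
      by_contra hj0
      apply hs
      refine isOfFinOrder_iff_pow_eq_one.mpr ⟨j, Nat.pos_of_ne_zero hj0, ?_⟩
      exact Subtype.ext hj
    obtain ⟨ψ, hψ⟩ := exists_hom_int (s : B) h1
    exact hψ ((mem_zKer.mp s.2) ψ)
  exact CommGroup.finite_of_fg_isMulTorsion _ htor

theorem finite_of_inter {Q : Type v} [Group Q] (M A : Subgroup Q) (hA : A.FiniteIndex)
    (h : ((M ⊓ A : Subgroup Q) : Set Q).Finite) : Finite M := by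
  have h0 : Finite ((M ⊓ A : Subgroup Q) : Set Q) := h.to_subtype
  have h1 : Finite (A.subgroupOf M) := by
    apply Finite.of_injective (fun x : A.subgroupOf M =>
      (⟨x.1.1, ⟨x.1.2, Subgroup.mem_subgroupOf.mp x.2⟩⟩ : ((M ⊓ A : Subgroup Q) : Set Q)))
    intro x y hxy
    have := congrArg Subtype.val hxy
    exact Subtype.ext (Subtype.ext this)
  have h2 : (A.subgroupOf M).FiniteIndex := inferInstance
  have h3 : Finite (M ⧸ A.subgroupOf M) := inferInstance
  exact Finite.of_subgroup_quotient (A.subgroupOf M)

section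

variable {G : Type u} [Group G] (H : Subgroup G)
  (hmax : ∀ Q₁ : Subgroup H, Q₁.FiniteIndex → ∀ ψ : Q₁ →* Multiplicative ℤ, ∀ k : Q₁,
    (k : H) ∈ zKer H → ψ k = 1)

include hmax

/-- the kernel has finite image in virtually abelian quotients -/
theorem finite_map_of_virtAb (hG : Group.FG G) {Q : Type v} [Group Q] (f : G →* Q)
    (hf : Surjective f) (hQ : VirtAb Q) : Finite ((zKer H).map (f.comp H.subtype)) := by
  obtain ⟨A, hA, hab⟩ := hQ
  have hQfg : Group.FG Q := Group.fg_of_surjective hf
  have hAfg : Group.FG A := inferInstance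
  let _ : CommGroup A :=
    { (inferInstance : Group A) with
      mul_comm := by
        intro a b
        exact Subtype.ext (hab a a.2 b b.2) }
  have hz : Finite (zKer A) := finite_zKer_comm
  let p : H →* Q := f.comp H.subtype
  have hQ₁ : (A.comap p).FiniteIndex := finiteIndex_comap p A hA
  have h1 : ∀ k : H, k ∈ zKer H → ∀ hk : p k ∈ A, (⟨p k, hk⟩ : A) ∈ zKer A := by
    intro k hk hkA
    rw [mem_zKer]
    intro ψ
    exact hmax (A.comap p) hQ₁ (ψ.comp (p.subgroupComap A)) ⟨k, hkA⟩ hk
  apply finite_of_inter _ A hA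
  apply Set.Finite.subset (s := Subtype.val '' (((zKer A : Subgroup A) : Set A)))
    (Set.Finite.image _ (Set.toFinite _))
  rintro x ⟨⟨k, hk, rfl⟩, hxA⟩
  exact ⟨⟨p k, hxA⟩, h1 k hk hxA, rfl⟩

/-- the kernel has finite image in tame quotients -/
theorem finite_map_of_tame (hG : Group.FG G) (hfg : (zKer H).FG) (hlin : LinVirtAb G)
    (hmain : (Infinite (zKer H) → VirtInd (zKer H)) → Finite (zKer H))
    {Q : Type u} [Group Q] (f : G →* Q) (hQ : Tame Q) :
    Finite ((zKer H).map (f.comp H.subtype)) := by
  obtain ⟨d, ρ, hρ⟩ := hQ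
  set p : H →* Q := f.comp H.subtype with hp
  set M : Subgroup Q := (zKer H).map p with hM
  by_contra hnf
  have hinf : Infinite M := not_finite_iff_infinite.mp hnf
  -- the image in the linear group is finite
  let g : G →* Matrix.GeneralLinearGroup (Fin d) ℂ := ρ.comp f
  have h1 : Finite ((zKer H).map (g.rangeRestrict.comp H.subtype)) :=
    finite_map_of_virtAb H hmax hG g.rangeRestrict g.rangeRestrict_surjective (hlin d g)
  have hKfg' : Group.FG (zKer H) := (Group.fg_iff_subgroup_fg _).mpr hfg
  have hMfg' : Group.FG M := Group.fg_of_surjective (p.subgroupMap_surjective (zKer H))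
  -- the restriction of ρ to M has finite range
  let τ : M →* Matrix.GeneralLinearGroup (Fin d) ℂ := ρ.comp M.subtype
  have h2 : Finite τ.range := by
    have : (τ.range : Set (Matrix.GeneralLinearGroup (Fin d) ℂ)) ⊆
        Subtype.val '' (((zKer H).map (g.rangeRestrict.comp H.subtype) : Subgroup g.range) :
          Set g.range) := by
      rintro _ ⟨⟨_, ⟨k, hk, rfl⟩⟩, rfl⟩
      exact ⟨g.rangeRestrict (k : G), ⟨k, hk, rfl⟩, rfl⟩
    exact Set.Finite.subset (Set.Finite.image _ (Set.toFinite _)) this
  have h3 : τ.ker.FiniteIndex := by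
    rw [Subgroup.finiteIndex_iff_finite_quotient]
    exact Finite.of_equiv _ (QuotientGroup.quotientKerEquivRange τ).symm.toEquiv
  have h4 : Group.FG τ.ker := inferInstance
  have h5 : Infinite τ.ker := by
    by_contra hcon
    have hfin : Finite τ.ker := not_infinite_iff_finite.mp hcon
    have hq : Finite (M ⧸ τ.ker) := inferInstance
    have : Finite M := Finite.of_subgroup_quotient τ.ker
    exact hnf this
  -- as a subgroup of ρ.ker
  let j : τ.ker →* ρ.ker :=
    { toFun := fun x => ⟨(x.1 : Q), x.2⟩
      map_one' := rfl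
      map_mul' := fun _ _ => rfl }
  have hj : Injective j := by
    intro x y hxy
    have := congrArg (fun z : ρ.ker => (z : Q)) hxy
    exact Subtype.ext (Subtype.ext this)
  have h6 : Infinite j.range := Infinite.of_injective j.rangeRestrict
    (fun x y h => hj (congrArg Subtype.val h))
  have h7 : Group.FG j.range := Group.fg_of_surjective j.rangeRestrict_surjective
  have h8 : VirtInd j.range := hρ j.range ((Group.fg_iff_subgroup_fg _).mp h7) h6
  have h9 : VirtInd τ.ker := h8.of_surjective j.rangeRestrict j.rangeRestrict_surjective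
  have h10 : VirtInd M := h9.of_finiteIndex τ.ker h3
  have h11 : VirtInd (zKer H) :=
    h10.of_surjective (p.subgroupMap (zKer H)) (p.subgroupMap_surjective (zKer H))
  have h12 : Finite (zKer H) := hmain (fun _ => h11)
  have h13 : Finite M := Finite.of_surjective _ (p.subgroupMap_surjective (zKer H))
  exact hnf h13

end

/-- a finitely generated commutative group has a free subgroup of finite index -/
theorem exists_free_of_comm (B : Type u) [CommGroup B] [hB : Group.FG B] :
    ∃ C : Subgroup B, C.FiniteIndex ∧ ∃ s : ℕ, Nonempty (C ≃* Multiplicative (Fin s → ℤ)) := by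
  obtain ⟨ι, j, _, _, p, hp, e, ⟨E⟩⟩ := CommGroup.equiv_free_prod_prod_multiplicative_zmod B
  let q : B →* ((i : ι) → Multiplicative (ZMod (p i ^ e i))) := (MonoidHom.snd _ _).comp E.toMonoidHom
  have hne : ∀ i, NeZero (p i ^ e i) := fun i => ⟨pow_ne_zero _ (hp i).ne_zero⟩
  have hfin : Finite ((i : ι) → Multiplicative (ZMod (p i ^ e i))) := inferInstance
  refine ⟨q.ker, ?_, Fintype.card j, ?_⟩
  · rw [Subgroup.finiteIndex_iff_finite_quotient]
    have : Finite q.range := inferInstance
    exact Finite.of_equiv _ (QuotientGroup.quotientKerEquivRange q).symm.toEquiv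
  · let F : q.ker ≃* (j → Multiplicative ℤ) :=
      { toFun := fun x => (E x.1).1
        invFun := fun y => ⟨E.symm (y, 1), by
          change (E (E.symm (y, 1))).2 = 1
          rw [MulEquiv.apply_symm_apply]⟩
        left_inv := by
          intro x
          apply Subtype.ext
          apply E.injective
          have hx : (E x.1).2 = 1 := x.2
          change E (E.symm ((E x.1).1, 1)) = E x.1
          rw [MulEquiv.apply_symm_apply]
          exact Prod.ext rfl hx.symm
        right_inv := by
          intro y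
          change (E (E.symm (y, 1))).1 = y
          rw [MulEquiv.apply_symm_apply]
        map_mul' := by
          intro x y
          change (E (x.1 * y.1)).1 = _
          rw [map_mul]
          rfl }
    let e2 : (j → Multiplicative ℤ) ≃* Multiplicative (Fin (Fintype.card j) → ℤ) :=
      { toFun := fun y => Multiplicative.ofAdd (fun i => Multiplicative.toAdd (y ((Fintype.equivFin j).symm i)))
        invFun := fun z => fun i => Multiplicative.ofAdd ((Multiplicative.toAdd z) (Fintype.equivFin j i))
        left_inv := by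
          intro y
          funext i
          simp
        right_inv := by
          intro z
          apply Multiplicative.toAdd.injective
          funext i
          simp
        map_mul' := by
          intro x y
          rfl }
    exact ⟨F.trans e2⟩

/-- a virtually abelian quotient is virtually free abelian of bounded rank -/
theorem virtZ_of_virtAb {G : Type u} [Group G] (hG : Group.FG G) {N : ℕ}
    (hb : ∀ H : Subgroup G, H.FiniteIndex → BettiLe H N)
    {Q : Type v} [Group Q] (f : G →* Q) (hf : Surjective f) (hQ : VirtAb Q) : VirtZLe Q N := by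
  obtain ⟨A, hA, hab⟩ := hQ
  have hQfg : Group.FG Q := Group.fg_of_surjective hf
  have hAfg : Group.FG A := inferInstance
  let _ : CommGroup A :=
    { (inferInstance : Group A) with
      mul_comm := by
        intro a b
        exact Subtype.ext (hab a a.2 b b.2) }
  obtain ⟨C, hC, s, ⟨e⟩⟩ := exists_free_of_comm A
  let i : C ≃* C.map A.subtype := Subgroup.equivMapOfInjective C A.subtype A.subtype_injective
  have hD : (C.map A.subtype).FiniteIndex := finiteIndex_map_subtype A hA C hC
  refine ⟨C.map A.subtype, hD, s, ?_, ⟨i.symm.trans e⟩⟩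
  have hD' := finiteIndex_comap f _ hD
  have := hb _ hD' s (fun x => Multiplicative.toAdd (e (i.symm (f.subgroupComap (C.map A.subtype) x))))
    (fun x y t => by simp only [map_mul]; rfl) ?_
  · exact this
  · intro y
    obtain ⟨c, hc⟩ := e.surjective (Multiplicative.ofAdd y)
    obtain ⟨x, hx⟩ := hf (i c : Q)
    refine ⟨⟨x, by rw [Subgroup.mem_comap, hx]; exact (i c).2⟩, ?_⟩
    have h1 : f.subgroupComap (C.map A.subtype) ⟨x, by rw [Subgroup.mem_comap, hx]; exact (i c).2⟩ = i c :=
      Subtype.ext hx
    simp only [h1, MulEquiv.symm_apply_apply, hc]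
    rfl

/-- the evaluation map -/
def ev (H : Type u) [Group H] : H →* ((H →* Multiplicative ℤ) → Multiplicative ℤ) where
  toFun := fun h ψ => ψ h
  map_one' := funext fun ψ => map_one ψ
  map_mul' := fun x y => funext fun ψ => map_mul ψ x y

theorem ev_ker (H : Type u) [Group H] : (ev H).ker = zKer H := by
  ext x
  rw [mem_zKer, MonoidHom.mem_ker]
  exact funext_iff

/-- the published restrictions pass to quotients -/
theorem restricted_of_surjective {G : Type u} [Group G] {Q : Type u} [Group Q] (f : G →* Q)
    (hf : Surjective f) {N : ℕ} (hG : Group.FG G) (h : Restricted G N) : Restricted Q N := by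
  refine ⟨fun H' hH' => ⟨?_, ?_⟩, ?_⟩
  · intro k g hg hgs
    have hH := finiteIndex_comap f H' hH'
    have hp : Surjective (f.subgroupComap H') := by
      intro y
      obtain ⟨x, hx⟩ := hf y
      exact ⟨⟨x, by rw [Subgroup.mem_comap, hx]; exact y.2⟩, Subtype.ext hx⟩
    exact (h.1 _ hH).1 k (fun x => g (f.subgroupComap H' x))
      (fun x y i => by simp only [map_mul, hg]) (hgs.comp hp)
  · have hH := finiteIndex_comap f H' hH'
    have hp : Surjective (f.subgroupComap H') := by
      intro y
      obtain ⟨x, hx⟩ := hf y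
      exact ⟨⟨x, by rw [Subgroup.mem_comap, hx]; exact y.2⟩, Subtype.ext hx⟩
    set H := H'.comap f with hHdef
    set p : H →* H' := f.subgroupComap H' with hpdef
    have hHfg : Group.FG H := inferInstance
    have hKfg : (zKer H).FG := (h.1 H hH).2
    have hle : zKer H ≤ (zKer H').comap p := by
      intro x hx
      rw [Subgroup.mem_comap, mem_zKer]
      intro ψ
      exact (mem_zKer.mp hx) (ψ.comp p)
    -- the preimage of `zKer H'` is finitely generated
    have hK' : Group.FG ((zKer H').comap p) := by
      let K' := (zKer H').comap p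
      let q : K' →* ((H →* Multiplicative ℤ) → Multiplicative ℤ) := (ev H).comp K'.subtype
      have hB : Group.FG (ev H).range := inferInstance
      have hqr : q.range ≤ (ev H).range := by
        rintro _ ⟨x, rfl⟩
        exact ⟨x.1, rfl⟩
      have h1 : (q.range.subgroupOf (ev H).range).FG := subgroup_fg_of_comm _
      have h2 : Group.FG (q.range.subgroupOf (ev H).range) := (Group.fg_iff_subgroup_fg _).mpr h1
      have h3 : Group.FG q.range :=
        Group.fg_of_surjective (f := (Subgroup.subgroupOfEquivOfLe hqr).toMonoidHom)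
          (Subgroup.subgroupOfEquivOfLe hqr).surjective
      have h4 : Group.FG (zKer H) := (Group.fg_iff_subgroup_fg _).mpr hKfg
      let c : zKer H →* q.rangeRestrict.ker :=
        { toFun := fun x => ⟨⟨x.1, hle x.2⟩, by
            rw [MonoidHom.mem_ker]
            apply Subtype.ext
            have : x.1 ∈ (ev H).ker := by rw [ev_ker]; exact x.2
            exact this⟩
          map_one' := rfl
          map_mul' := fun _ _ => rfl }
      have hc : Surjective c := by
        intro y
        have hy : q y.1 = 1 := congrArg Subtype.val y.2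
        have hy' : (y.1 : H) ∈ zKer H := by
          rw [← ev_ker]
          exact hy
        exact ⟨⟨y.1.1, hy'⟩, rfl⟩
      have h5 : Group.FG q.rangeRestrict.ker := Group.fg_of_surjective hc
      exact fg_of_ker_fg h3 q.rangeRestrict q.rangeRestrict_surjective
        ((Group.fg_iff_subgroup_fg _).mp h5)
    have h6 : Surjective (p.subgroupComap (zKer H')) := by
      intro y
      obtain ⟨x, hx⟩ := hp y
      exact ⟨⟨x, by rw [Subgroup.mem_comap, hx]; exact y.2⟩, Subtype.ext hx⟩
    exact (Group.fg_iff_subgroup_fg _).mp (Group.fg_of_surjective h6)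
  · intro d ρ
    have h1 := h.2 d (ρ.comp f)
    have h2 : (ρ.comp f).range = ρ.range := by
      ext x
      constructor
      · rintro ⟨y, rfl⟩
        exact ⟨f y, rfl⟩
      · rintro ⟨y, rfl⟩
        obtain ⟨z, rfl⟩ := hf y
        exact ⟨z, rfl⟩
    rwa [h2] at h1

theorem locVirtInd_of_elemAmen {Q : Type u} [Group Q] (h : ElemAmen Q) : LocVirtInd Q := by
  intro K hK hinf
  exact secVI_of_elemAmen h K K K.subtype (MonoidHom.id K) K.subtype_injective
    surjective_id ((Group.fg_iff_subgroup_fg K).mpr hK) hinf

theorem locVirtInd_of_locInd {Q : Type u} [Group Q] (h : LocInd Q) : LocVirtInd Q := by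
  intro K hK hinf
  have hne : K ≠ ⊥ := by
    rintro rfl
    exact not_finite (⊥ : Subgroup Q)
  obtain ⟨f, hf⟩ := h K hK hne
  refine ⟨⊤, inferInstance, f.comp (Subgroup.topEquiv (G := K)).toMonoidHom, ?_⟩
  intro z
  obtain ⟨l, rfl⟩ := hf z
  exact ⟨⟨l, trivial⟩, rfl⟩

theorem LocVirtInd.of_injective {P : Type u} {Q : Type u} [Group P] [Group Q] (i : P →* Q)
    (hi : Injective i) (h : LocVirtInd Q) : LocVirtInd P := by
  intro K hK hinf
  let e : K ≃* K.map i := Subgroup.equivMapOfInjective K i hi
  have hKfg : Group.FG K := (Group.fg_iff_subgroup_fg _).mpr hK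
  have h1 : Group.FG (K.map i) := Group.fg_of_surjective (f := e.toMonoidHom) e.surjective
  have h2 : Infinite (K.map i) := Infinite.of_injective e e.injective
  exact (h _ ((Group.fg_iff_subgroup_fg _).mp h1) h2).of_surjective e.toMonoidHom e.surjective

theorem tame_of_locVirtInd {Q : Type u} [Group Q] (h : LocVirtInd Q) : Tame Q :=
  ⟨0, 1, h.of_injective (Subgroup.subtype _) (Subgroup.subtype_injective _)⟩

theorem tame_of_linear {Q : Type u} [Group Q] {d : ℕ}
    (ρ : Q →* Matrix.GeneralLinearGroup (Fin d) ℂ) (hρ : Injective ρ) : Tame Q := by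
  refine ⟨d, ρ, ?_⟩
  intro K _ hinf
  exfalso
  have h1 : ρ.ker = ⊥ := (MonoidHom.ker_eq_bot_iff ρ).mpr hρ
  have h2 : Finite ρ.ker := by rw [h1]; infer_instance
  exact not_finite K

end Vale.Agent.P284.H593
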